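import Vale.Agent.P251EJ.DefsM
import Vale.Agent.P221.H246.BPC

/-!
# P251EJ, row MAIN: the assembly of the blocks
-/

open CategoryTheory MonoidalCategory MonObj Limits Pretriangulated

set_option linter.unusedSectionVars false

noncomputable section

namespace Vale.Agent.P251EJ70

open Vale.Agent.P251 Vale.Agent.P251.S Vale.Agent.P251.T Vale.Agent.P251.M Vale.Agent.P251.F
  Vale.Agent.P251.I EvenSpheres Vale.Agent.P257.H80 Vale.Agent.P257.H702 Vale.Agent.P093.N0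
  Vale.Agent.P251EJ

universe v u

/-- `MU` with all its structure, at all primes. -/
theorem exists_mu {T : Type u} [Category.{v} T] [Preadditive T] [HasZeroObject T]
    [HasShift T ℤ] [∀ n : ℤ, (shiftFunctor T n).Additive] [Pretriangulated T] [IsTriangulated T]
    [MonoidalCategory T] [SymmetricCategory T] [TensorTriangulated T] [MonoidalClosed T]
    [HasCoproducts.{0} T] [HasProducts.{0} T] [StableCat T] (F : SpaceFunctor T)
    (e : F.S.obj CCF ≅ (stdEven T).L) :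
    ∃ D : MUData T, MUUniv e D ∧ MUAll D ∧ Nonempty (MUFam e D) := by
  obtain ⟨M⟩ := nonempty_MUMon F (stdEven T) e
  obtain ⟨b⟩ := M.nonempty_muBasis
  refine ⟨M.data b, M.muUniv b, MUMon.muAll M b, ⟨⟨M.fam, ?_, ?_, ?_⟩⟩⟩
  · rw [M.data_law b, M.ori_eq, M.orient_eq]
    rfl
  · intro K _ _ W'
    obtain ⟨u, hu, _, h⟩ := M.exists_univ_of_cls W' (clsOfFam e W') (fun _ _ => rfl)
    exact ⟨u, hu, h⟩
  · intro K _ _ u u' hu hu' h
    exact @univ_unique T _ _ _ _ _ _ _ _ _ _ _ _ _ _ F (stdEven T) e M K _ _ u u' hu hu' h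

/-- **Row MAIN.** -/
theorem asmM : AsmM := by
  rintro p _ n hS hO hE hH hT hI hOut ⟨X⟩ T S
  obtain ⟨D, hD, hA, ⟨U⟩⟩ := exists_mu S.toSpaceFunctor (M.lineIso S.toSpaceFunctor)
  obtain ⟨Rp, i1, i2, l, i3, B, i4, i5, s, r, i6, i7, -, -, hb⟩ := exists_bp (p := p) hD
  obtain ⟨Φ, hΦ⟩ := hb.law
  have h1 := hO T S.toSpaceFunctor (M.lineIso S.toSpaceFunctor) D p B (l ≫ r) (hS T S) hD hA hb
  have h2 := hE T S.toSpaceFunctor (M.lineIso S.toSpaceFunctor) D p B (l ≫ r) hb Φ (hS T S) hD hA hΦ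
  obtain ⟨lam, hl1, hl2, ⟨P⟩⟩ := hT T D p n B (l ≫ r) hb Φ X hΦ h2
  obtain ⟨G⟩ := hH T B _ (P221.H246.rbB hD hb) X.A X.H lam h1 hl2 P
  obtain ⟨E, j1, j2, u, j3, Φ', hJ⟩ := hI T S.toSpaceFunctor (M.lineIso S.toSpaceFunctor) D p n B
    (l ≫ r) hb Φ X lam G hD hΦ h2 hl1
  obtain ⟨o, φ, h⟩ := hOut T S p n D U (@St.RingSp.mk T E j1 j2) u Φ' hJ
  exact ⟨_, o, φ, h⟩

end Vale.Agent.P251EJ70
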