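import Vale.Agent.P251EJ.Defs

/-!
# P251EJ, block B: from the rational homotopy of `MU` to the even homotopy of `BP`
-/

open CategoryTheory MonoidalCategory MonObj Limits Pretriangulated

set_option linter.unusedSectionVars false

universe u

noncomputable section

namespace Vale.Agent.P251EJ70

open Vale.Agent.P251 Vale.Agent.P251.S Vale.Agent.P251.T Vale.Agent.P251.M Vale.Agent.P251.F
  Vale.Agent.P251.I EvenSpheres Vale.Agent.P257.H80 Vale.Agent.P221.H246 Vale.Agent.P221.T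
  Vale.Agent.P221.T.H520 Vale.Agent.P093.N0 Vale.Agent.P221X.EXI Vale.Agent.P221.H746
  Vale.Agent.P221.H924

section alg

variable {p : ℕ} [hp : Fact p.Prime]

theorem isUnit_int {A : Type} [CommRing A] (hA : PLoc p A) {m : ℤ} (hm : ¬ (p : ℤ) ∣ m) :
    IsUnit (m : A) := Z0.isUnit hA ⟨m, hm⟩

theorem intCast_inj {a b : ℤ} (h : (a : Z0 p) = b) : a = b := by
  have hQ : PLoc p ℚ := fun m hm => IsUnit.mk0 _ (by
    rintro h0
    exact hm (by rw [Nat.cast_eq_zero.1 h0]; exact dvd_zero p))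
  have h1 := congrArg (Z0.lift hQ) h
  rw [map_intCast, map_intCast] at h1
  exact_mod_cast h1

/-- the reduction modulo `p` -/
def red (p : ℕ) [Fact p.Prime] : Z0 p →+* ZMod p :=
  Z0.lift (pLoc_of_char (ZMod.natCast_self p))

theorem red_eq_zero (z : Z0 p) : red p z = 0 ↔ (p : Z0 p) ∣ z := by
  constructor
  · intro h
    obtain ⟨m, a, hm, ha⟩ := Z0.exists_mul z
    have h1 := congrArg (red p) ha
    rw [map_mul, h, mul_zero, map_intCast, eq_comm, ZMod.intCast_zmod_eq_zero_iff_dvd] at h1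
    obtain ⟨c, rfl⟩ := h1
    refine ((ploc_Z0 p m hm).dvd_mul_left).1 ⟨c, ?_⟩
    rw [ha]
    push_cast
    rfl
  · rintro ⟨c, rfl⟩
    rw [map_mul, map_natCast, ZMod.natCast_self, zero_mul]

theorem sep_Z0 (z : Z0 p) (h : ∀ k : ℕ, (p : Z0 p) ^ k ∣ z) : z = 0 := by
  obtain ⟨m, a, hm, ha⟩ := Z0.exists_mul z
  have h1 : ∀ k : ℕ, (p : ℤ) ^ k ∣ a := by
    intro k
    obtain ⟨c, hc⟩ := h k
    obtain ⟨m', a', hm', ha'⟩ := Z0.exists_mul c
    have h2 : (m' : ℤ) * a = (p : ℤ) ^ k * (m * a') := by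
      apply intCast_inj (p := p)
      push_cast
      rw [← ha, ← ha', hc]
      ring
    have h3 : IsCoprime ((p : ℤ) ^ k) (m' : ℤ) :=
      ((Nat.prime_iff_prime_int.1 hp.out).coprime_iff_not_dvd.2
        fun h => hm' (Int.natCast_dvd_natCast.1 h)).pow_left
    exact h3.dvd_of_dvd_mul_left ⟨_, h2⟩
  have h4 : a = 0 := by
    refine Int.eq_zero_of_dvd_of_natAbs_lt_natAbs (h1 a.natAbs) ?_
    rw [Int.natAbs_pow, Int.natAbs_natCast]
    exact Nat.lt_pow_self hp.out.one_lt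
  rw [h4, Int.cast_zero] at ha
  exact ((ploc_Z0 p m hm).mul_right_eq_zero).1 ha

theorem sep_K0 (x : K0 p) (h : ∀ k : ℕ, (p : K0 p) ^ k ∣ x) : x = 0 := by
  refine MvPolynomial.ext _ _ fun E => sep_Z0 _ fun k => ?_
  obtain ⟨c, rfl⟩ := h k
  have h1 : (p : K0 p) ^ k = MvPolynomial.C ((p : Z0 p) ^ k) := by rw [map_pow, map_natCast]
  rw [h1, MvPolynomial.coeff_C_mul]
  exact dvd_mul_right _ _

/-- a rational surjection which is the identity modulo `p` into a ring without `p`-torsion -/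
theorem bij_alg {R : Type} [CommRing R] (Ψ : K0 p →+* R) (κ : R →+* MvPolynomial ℕ (ZMod p))
    (hκ : ∀ i, κ (Ψ (MvPolynomial.X i)) = MvPolynomial.X i)
    (tf : ∀ y : R, (p : R) * y = 0 → y = 0)
    (rat : ∀ y : R, ∃ (m : ℤ) (x : K0 p), m ≠ 0 ∧ (m : R) * y = Ψ x) : Function.Bijective Ψ := by
  have h1 : κ.comp Ψ = MvPolynomial.map (red p) :=
    MvPolynomial.ringHom_ext' (Z0.hom_ext _ _) fun i => by
      rw [RingHom.comp_apply, hκ, MvPolynomial.map_X]
  have h2 : ∀ (x : K0 p) (y : R), Ψ x = (p : R) * y → ∃ x', x = (p : K0 p) * x' ∧ Ψ x' = y := by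
    intro x y h
    have h3 : MvPolynomial.map (red p) x = 0 := by
      rw [← h1, RingHom.comp_apply, h, map_mul, map_natCast, natCast_zero p, zero_mul]
    obtain ⟨x', hx'⟩ :=
      (MvPolynomial.C_dvd_iff_map_hom_eq_zero (red p) (p : Z0 p) red_eq_zero x).2 h3
    rw [map_natCast] at hx'
    refine ⟨x', hx', sub_eq_zero.1 (tf _ ?_)⟩
    rw [mul_sub, ← h, hx', map_mul, map_natCast, sub_self]
  constructor
  · rw [injective_iff_map_eq_zero]
    intro x hx
    have h4 : ∀ k : ℕ, ∃ x', x = (p : K0 p) ^ k * x' ∧ Ψ x' = 0 := by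
      intro k
      induction k with
      | zero => exact ⟨x, by rw [pow_zero, _root_.one_mul], hx⟩
      | succ k ih =>
        obtain ⟨x', h5, h6⟩ := ih
        obtain ⟨x'', h7, h8⟩ := h2 x' 0 (by rw [h6, mul_zero])
        exact ⟨x'', by rw [h5, h7]; ring, h8⟩
    exact sep_K0 x fun k => ⟨_, (h4 k).choose_spec.1⟩
  · intro y
    obtain ⟨m, x, hm, hx⟩ := rat y
    have h5 : ∀ (k : ℕ) (x : K0 p), Ψ x = (p : R) ^ k * y → ∃ x', Ψ x' = y := by
      intro k
      induction k with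
      | zero => exact fun x hx => ⟨x, by rw [hx, pow_zero, _root_.one_mul]⟩
      | succ k ih =>
        intro x hx
        obtain ⟨x', -, h6⟩ := h2 x ((p : R) ^ k * y) (by rw [hx]; ring)
        exact ih x' h6
    obtain ⟨k, a, ha, rfl⟩ := WfDvdMonoid.max_power_factor hm
      (Nat.prime_iff_prime_int.1 hp.out).irreducible
    obtain ⟨v, hv⟩ := (isUnit_int (ploc_Z0 p) ha).exists_left_inv
    refine h5 k (MvPolynomial.C v * x) ?_
    have h6 : Ψ (MvPolynomial.C v) * (a : R) = 1 := by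
      have h7 := congrArg (Ψ.comp MvPolynomial.C) hv
      rwa [map_mul, map_intCast, map_one] at h7
    rw [map_mul, ← hx]
    push_cast
    linear_combination ((p : R) ^ k * y) * h6

end alg

variable {𝒯 : Type u} [Category.{0} 𝒯] [Preadditive 𝒯] [HasZeroObject 𝒯]
    [HasShift 𝒯 ℤ] [∀ n : ℤ, (shiftFunctor 𝒯 n).Additive] [Pretriangulated 𝒯] [IsTriangulated 𝒯]
    [MonoidalCategory 𝒯] [SymmetricCategory 𝒯] [TensorTriangulated 𝒯] [MonoidalClosed 𝒯]
    [HasCoproducts.{0} 𝒯] [HasProducts.{0} 𝒯] [StableCat 𝒯]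
  {F : SpaceFunctor 𝒯} {e : F.S.obj CCF ≅ (stdEven 𝒯).L} {D : MUData 𝒯} {p : ℕ} [hp : Fact p.Prime]

/-- clearing the denominators in a localization -/
theorem num_ring {K K' : 𝒯} [MonObj K] [IsCommMonObj K] [MonObj K'] [IsCommMonObj K'] {l : K ⟶ K'}
    [IsMonHom l] (hl : IsLocPi p l) (y : HRing (stdEven 𝒯) K') :
    ∃ (m : ℤ) (x : HRing (stdEven 𝒯) K), m ≠ 0 ∧
      (m : HRing (stdEven 𝒯) K') * y = HRing.map (E := stdEven 𝒯) l x := by
  induction y using DirectSum.induction_on with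
  | zero => exact ⟨1, 0, one_ne_zero, by simp⟩
  | of w a =>
    obtain ⟨m, x, hm, hx⟩ := hl.num' ⟨2 * w, ⟨stdSph w⟩⟩ a
    refine ⟨m, HRing.of (stdEven 𝒯) K w x, fun h => hm (h ▸ dvd_zero _), ?_⟩
    rw [HRing.map_of, ← hx, of_zsmul']
  | add x y hx hy =>
    obtain ⟨m, x', hm, h1⟩ := hx
    obtain ⟨m', y', hm', h2⟩ := hy
    refine ⟨m * m', (m' : HRing (stdEven 𝒯) K) * x' + (m : HRing (stdEven 𝒯) K) * y',
      mul_ne_zero hm hm', ?_⟩
    rw [map_add, map_mul, map_mul, map_intCast, map_intCast, ← h1, ← h2]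
    push_cast
    ring

variable {B : 𝒯} [MonObj B] [IsCommMonObj B] {b : D.R ⟶ B} [IsMonHom b]

/-- rationally, `π_{2*} B` is generated by the image of `π_{2*} MU` -/
theorem rat_b (hD : MUUniv e D) (hb : IsBPMon p b) (y : HRing (stdEven 𝒯) B) :
    ∃ (m : ℤ) (x : HRing (stdEven 𝒯) D.R), m ≠ 0 ∧
      (m : HRing (stdEven 𝒯) B) * y = HRing.map (E := stdEven 𝒯) b x := by
  obtain ⟨Rp, _, _, l, _, hl, f, _, g, _, hlg, hfg, -⟩ := exists_retract hD hb
  obtain ⟨m, x, hm, hx⟩ := num_ring (IsPLoc.isLocPi hl) (HRing.map (E := stdEven 𝒯) f y)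
  refine ⟨m, x, hm, ?_⟩
  have h2 : y = HRing.map g (HRing.map f y) := by
    rw [← RingHom.comp_apply, ← HRing.map_comp, HRing_map_congr' hfg, HRing.map_id,
      RingHom.id_apply]
  have h3 := congrArg (HRing.map (E := stdEven 𝒯) g) hx
  rw [map_mul, map_intCast, ← h2, ← RingHom.comp_apply, ← HRing.map_comp,
    HRing_map_congr' hlg] at h3
  exact h3

/-- bijectivity from rational surjectivity of `Φ` -/
theorem bij_of_ratB (hD : MUUniv e D) (hA : MUAll D) (hb : IsBPMon p b)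
    (Φ : MvPolynomial ℕ ℤ →+* HRing (stdEven 𝒯) B) (hΦ : lawOf b = (haz p).map Φ)
    (hrat : ∀ y : HRing (stdEven 𝒯) B, ∃ (m : ℤ) (x : K0 p), m ≠ 0 ∧
      (m : HRing (stdEven 𝒯) B) * y = PhiT (ell hb) Φ x) :
    Function.Bijective (PhiT (ell hb) Φ) := by
  obtain ⟨κ, -, -, hκ⟩ := exists_kappa hD hA hb
  have h1 : κ.comp Φ = redP p := by
    apply haz_map_injective p (pLoc_of_char (natCast_zero p))
    change (haz p).map (κ.comp Φ) = (haz p).map (redP p)
    rw [← Law.map_map, ← hΦ, hκ, hazk]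
  refine bij_alg _ κ (fun i => ?_) (tf hD hA hb) hrat
  rw [PhiT_X, ← RingHom.comp_apply, h1, redP_X]

theorem PhiT_map {Z : Type} [CommRing Z] (ℓ : Z →+* HRing (stdEven 𝒯) B)
    (Φ : MvPolynomial ℕ ℤ →+* HRing (stdEven 𝒯) B) (x : MvPolynomial ℕ ℤ) :
    PhiT ℓ Φ (MvPolynomial.map (Int.castRingHom Z) x) = Φ x := by
  have h : (PhiT ℓ Φ).comp (MvPolynomial.map (Int.castRingHom Z)) = Φ :=
    MvPolynomial.ringHom_ext' (RingHom.ext_int _ _) fun i => by
      rw [RingHom.comp_apply, MvPolynomial.map_X, PhiT_X]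
  exact DFunLike.congr_fun h x

/-- **`π_{2*} BP`** from the rational homotopy of `MU` -/
theorem bij_of_rat (hD : MUUniv e D) (hA : MUAll D) (hb : IsBPMon p b)
    (Φ : MvPolynomial ℕ ℤ →+* HRing (stdEven 𝒯) B) (hΦ : lawOf b = (haz p).map Φ)
    (hrat : ∀ y : HRing (stdEven 𝒯) D.R, ∃ (m : ℤ) (z : Laz), m ≠ 0 ∧
      (m : HRing (stdEven 𝒯) D.R) * y = Laz.lift (lawOf (𝟙 D.R)) z) :
    Function.Bijective (PhiT (ell hb) Φ) := by
  refine bij_of_ratB hD hA hb Φ hΦ fun y => ?_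
  obtain ⟨m, x, hm, hx⟩ := rat_b hD hb y
  obtain ⟨m', z, hm', hz⟩ := hrat x
  refine ⟨m' * m, MvPolynomial.map (Int.castRingHom (Z0 p)) (Laz.lift (haz p) z),
    mul_ne_zero hm' hm, ?_⟩
  have h1 := congrArg (HRing.map (E := stdEven 𝒯) b) hz
  rw [map_mul, map_intCast, Laz.map_lift, ← lawOf_comp, lawOf_congr (Category.id_comp b), hΦ,
    ← Laz.map_lift, ← hx] at h1
  rw [PhiT_map, ← h1]
  push_cast
  ring

end Vale.Agent.P251EJ70
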